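import Vale.Agent.P221.T.H746.IpLem

/-!
# P221, part T (helper746): `SpecSB`, the filtered system of the standard form
-/

open MvPolynomial

set_option linter.unusedSectionVars false

namespace Vale.Agent.P221.T.H746

/-- homogeneous substitutions preserve homogeneity -/
theorem aeval_WH {σ τ R : Type*} [CommRing R] {w : σ → ℤ} {w' : τ → ℤ} {y : σ → MvPolynomial τ R}
    (hy : ∀ i, (y i).IsWeightedHomogeneous w' (w i)) {f : MvPolynomial σ R} {m : ℤ}
    (hf : f.IsWeightedHomogeneous w m) : (aeval y f).IsWeightedHomogeneous w' m := by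
  classical
  rw [f.as_sum, map_sum]
  refine (weightedHomogeneousSubmodule R w' m).sum_mem fun d hd => ?_
  rw [mem_weightedHomogeneousSubmodule, aeval_monomial, algebraMap_eq]
  have h1 : m = 0 + ∑ i ∈ d.support, d i • w i := by
    rw [zero_add, ← hf (mem_support_iff.1 hd), Finsupp.weight_apply]
    rfl
  rw [h1]
  refine (isWeightedHomogeneous_C _ _).mul ?_
  rw [Finsupp.prod]
  exact IsWeightedHomogeneous.prod _ _ _ fun i _ => (hy i).pow _

variable {p : ℕ} [hp : Fact p.Prime] {n : ℕ}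

theorem dT_zero : dT p 0 = 0 := by rw [dT, map_zero]

theorem dT_add (E E' : ℕ →₀ ℕ) : dT p (E + E') = dT p E + dT p E' := by
  rw [dT, dT, dT, map_add]

theorem HK_cast {k k' : ℤ} (h : k = k') {f : KK p} (hf : HK p k f) : HK p k' f := by
  subst h
  exact hf

section

variable {ld : Lead p n} {S : Src p n} {O : OpAlg ld S} {Y : Sys S} {M : Type}
  [AddCommGroup M] [Module (KK p) M] {Mg : ℤ → AddSubgroup M} (co : Coor O Y M Mg) {y : M}
  (hy : y ∈ Mg 0)
  (hf : ∀ k, ∀ z ∈ Mg k, ∃! f : MvPolynomial (Fin n) ℤ_[p],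
      HK p k (RN p n f) ∧ z = RN p n f • y)

open Classical in
/-- the coefficient of `y` -/
noncomputable def cf (k : ℤ) (z : M) : MvPolynomial (Fin n) ℤ_[p] :=
  if h : z ∈ Mg k then (hf k z h).choose else 0

theorem cf_HK (k : ℤ) (z : M) : HK p k (RN p n (cf hf k z)) := by
  unfold cf
  split_ifs with h
  · exact (hf k z h).choose_spec.1.1
  · rw [map_zero]
    exact HK_zero k

theorem cf_spec {k : ℤ} {z : M} (h : z ∈ Mg k) : z = RN p n (cf hf k z) • y := by
  unfold cf
  rw [dif_pos h]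
  exact (hf k z h).choose_spec.1.2

include co hy in
theorem mem_of_HK {k : ℤ} {u : KK p} (h : HK p k u) : u • y ∈ Mg k := by
  have h1 := co.smul_mem h hy
  rwa [zero_add] at h1

include co hy in
theorem cf_eq {k : ℤ} {z : M} {f : MvPolynomial (Fin n) ℤ_[p]} (h : HK p k (RN p n f))
    (hz : z = RN p n f • y) : cf hf k z = f := by
  have h1 : z ∈ Mg k := by
    rw [hz]
    exact mem_of_HK co hy h
  exact (hf k z h1).unique ⟨cf_HK hf k z, cf_spec hf h1⟩ ⟨h, hz⟩

include co hy in
theorem cf_add {k : ℤ} {z z' : M} (h : z ∈ Mg k) (h' : z' ∈ Mg k) :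
    cf hf k (z + z') = cf hf k z + cf hf k z' := by
  apply cf_eq co hy hf
  · rw [map_add]
    exact (weightedHomogeneousSubmodule _ _ _).add_mem (cf_HK hf k z) (cf_HK hf k z')
  · rw [map_add, add_smul, ← cf_spec hf h, ← cf_spec hf h']

include co hy in
theorem cf_zero (k : ℤ) : cf hf k (0 : M) = 0 := by
  apply cf_eq co hy hf
  · rw [map_zero]
    exact HK_zero k
  · rw [map_zero, zero_smul]

include co hy in
theorem cf_neg {k : ℤ} {z : M} (h : z ∈ Mg k) : cf hf k (-z) = -cf hf k z := by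
  have h1 := cf_add co hy hf h (AddSubgroup.neg_mem _ h)
  rw [add_neg_cancel, cf_zero co hy hf] at h1
  exact (neg_eq_of_add_eq_zero_right h1.symm).symm

include co hy in
theorem cf_sum {k : ℤ} {ι : Type*} (A : Finset ι) (z : ι → M) (h : ∀ i ∈ A, z i ∈ Mg k) :
    cf hf k (∑ i ∈ A, z i) = ∑ i ∈ A, cf hf k (z i) := by
  classical
  induction A using Finset.induction_on with
  | empty => rw [Finset.sum_empty, Finset.sum_empty, cf_zero co hy hf]
  | insert i A hi ih =>
    rw [Finset.sum_insert hi, Finset.sum_insert hi,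
      cf_add co hy hf (h i (Finset.mem_insert_self i A))
        (AddSubgroup.sum_mem _ fun j hj => h j (Finset.mem_insert_of_mem hj)),
      ih fun j hj => h j (Finset.mem_insert_of_mem hj)]

/-! ### the action of `v_{n+1}, v_{n+2}, …` -/

/-- the homomorphism `ℤ_p[v_1, v_2, …] ⟶ ℤ_p[v_1, …, v_n]` given by the action on `y` -/
noncomputable def rho : KK p →ₐ[ℤ_[p]] MvPolynomial (Fin n) ℤ_[p] :=
  aeval fun i => cf hf (sV p (i + 1)) ((X i : KK p) • y)

theorem HK_X (i : ℕ) : HK p (sV p (i + 1)) (X i : KK p) := isWeightedHomogeneous_X _ _ _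

theorem rho_X (i : ℕ) : rho hf (X i) = cf hf (sV p (i + 1)) ((X i : KK p) • y) := by
  rw [rho, aeval_X]

include co hy in
theorem rho_X_lt {i : ℕ} (h : i < n) : rho hf (X i) = X ⟨i, h⟩ := by
  rw [rho_X]
  apply cf_eq co hy hf
  · rw [RN, rename_X]
    exact HK_X i
  · rw [RN, rename_X]

theorem rho_C (c : ℤ_[p]) : rho hf (C c) = C c := by
  rw [rho, ← algebraMap_eq, AlgHom.commutes, algebraMap_eq]

include co hy in
theorem rho_smul (u : KK p) : ∀ w : KK p, u • w • y = RN p n (rho hf u) • w • y := by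
  induction u using MvPolynomial.induction_on with
  | C c =>
    intro w
    rw [rho_C, RN, rename_C]
  | add f g hf' hg' =>
    intro w
    rw [map_add, map_add, add_smul, add_smul, hf', hg']
  | mul_X f i hf' =>
    intro w
    rw [map_mul, map_mul, mul_smul, mul_smul]
    have h1 : (X i : KK p) • w • y = RN p n (rho hf (X i)) • w • y := by
      rw [smul_comm, smul_comm (RN p n (rho hf (X i))), rho_X,
        ← cf_spec hf (mem_of_HK co hy (HK_X i))]
    rw [h1, smul_smul (RN p n (rho hf (X i))), hf', ← smul_smul (RN p n (rho hf (X i)))]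

theorem rho_HK {m : ℤ} {u : KK p} (h : HK p m u) : HK p m (RN p n (rho hf u)) := by
  rw [HK_RN_iff]
  refine aeval_WH (fun i => ?_) h
  rw [← HK_RN_iff]
  exact cf_HK hf _ _

/-- `v_{i+1}`, `n ≤ i`, acts by an element of `Ip 2` -/
theorem rho_X_mem {i : ℕ} (hi : n ≤ i) : RN p n (rho hf (X i)) ∈ Ip p 2 := by
  rw [mem_Ip_RN_iff]
  intro E
  by_cases h : coeff E (rho hf (X i)) = 0
  · rw [h]
    exact dvd_zero _
  · have h1 : Finsupp.weight (fun i : Fin n => sV p (i + 1)) E = sV p (i + 1) :=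
      (HK_RN_iff p).1 (rho_HK hf (HK_X i)) h
    have h2 := two_le_degree p hi h1
    have h3 : (2 : ℤ).toNat - E.degree = 0 := by
      have : (2 : ℤ).toNat = 2 := rfl
      omega
    rw [h3, pow_zero]
    exact one_dvd _

include co hy in
theorem rho_X_lead (i : ℕ) : RN p n (rho hf (X i)) ∈ II p ∧
    ld.L 1 (RN p n (rho hf (X i))) = ld.L 1 (X i) := by
  have h1 : Ip p 1 = II p := by rw [Ip, Int.toNat_one, pow_one]
  by_cases hi : i < n
  · rw [rho_X_lt co hy hf hi, RN, rename_X]
    exact ⟨X_mem_II p i, rfl⟩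
  · push Not at hi
    have h2 := rho_X_mem hf hi
    refine ⟨?_, ?_⟩
    · rw [← h1]
      exact Ip_mono p (by norm_num) h2
    · rw [ld.v_ge i hi]
      exact lead_zero ld h2

include co hy in
/-- `ρ` preserves the filtration and the leading terms -/
theorem rho_lead_nat (t : ℕ) : ∀ u ∈ II p ^ t, RN p n (rho hf u) ∈ II p ^ t ∧
    ld.L t (RN p n (rho hf u)) = ld.L t u := by
  have h1 : Ip p 1 = II p := by rw [Ip, Int.toNat_one, pow_one]
  have h0 : Ip p 0 = ⊤ := by rw [Ip, Int.toNat_zero, pow_zero, Ideal.one_eq_top]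
  have hX := rho_X_lead (ld := ld) co hy hf
  -- degree 0
  have key0 : ∀ u : KK p, ld.L 0 (RN p n (rho hf u)) = ld.L 0 u := by
    intro u
    induction u using MvPolynomial.induction_on with
    | C c => rw [rho_C, RN, rename_C]
    | add f g hf' hg' =>
      rw [map_add, map_add, ld.add (by rw [h0]; trivial) (by rw [h0]; trivial),
        ld.add (by rw [h0]; trivial) (by rw [h0]; trivial), hf', hg']
    | mul_X f i _ =>
      have h2 : ld.L 0 (f * X i) = 0 := lead_zero ld (by
        rw [zero_add, h1]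
        exact Ideal.mul_mem_left _ _ (X_mem_II p i))
      have h3 : ld.L 0 (RN p n (rho hf (f * X i))) = 0 := lead_zero ld (by
        rw [zero_add, h1, map_mul, map_mul]
        exact Ideal.mul_mem_left _ _ (hX i).1)
      rw [h2, h3]
  -- degree 1
  have key1 : ∀ u ∈ II p, RN p n (rho hf u) ∈ II p ∧
      ld.L 1 (RN p n (rho hf u)) = ld.L 1 u := by
    intro u hu
    rw [II] at hu
    refine Submodule.span_induction ?_ ?_ ?_ ?_ hu
    · rintro _ (rfl | ⟨i, rfl⟩)
      · rw [map_natCast, map_natCast]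
        exact ⟨p_mem_II p, rfl⟩
      · exact hX i
    · rw [map_zero, map_zero]
      exact ⟨Ideal.zero_mem _, rfl⟩
    · rintro a b ha hb ⟨h2, h3⟩ ⟨h4, h5⟩
      rw [map_add, map_add]
      refine ⟨Ideal.add_mem _ h2 h4, ?_⟩
      rw [ld.add (by rwa [h1]) (by rwa [h1]), h3, h5, ld.add (by rwa [h1]) (by rwa [h1])]
    · rintro c b hb ⟨h2, h3⟩
      rw [smul_eq_mul, map_mul, map_mul]
      refine ⟨Ideal.mul_mem_left _ _ h2, ?_⟩
      have e : (1 : ℤ) = 0 + 1 := by norm_num
      rw [e, lead_mul ld (by rw [h0]; trivial) (by rwa [h1]), lead_mul ld (by rw [h0]; trivial)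
        (by rw [h1]; exact hb), key0, h3]
  induction t with
  | zero =>
    intro u _
    refine ⟨?_, key0 u⟩
    rw [pow_zero, Ideal.one_eq_top]
    trivial
  | succ t ih =>
    intro u hu
    rw [pow_succ] at hu ⊢
    have e : ((t + 1 : ℕ) : ℤ) = (t : ℤ) + 1 := by push_cast; rfl
    have ht : Ip p (t : ℤ) = II p ^ t := by rw [Ip, Int.toNat_natCast]
    have ht1 : Ip p ((t : ℤ) + 1) = II p ^ t * II p := by
      rw [← e, Ip, Int.toNat_natCast, pow_succ]
    rw [e]
    suffices h : u ∈ II p ^ t * II p ∧ RN p n (rho hf u) ∈ II p ^ t * II p ∧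
        ld.L ((t : ℤ) + 1) (RN p n (rho hf u)) = ld.L ((t : ℤ) + 1) u from h.2
    refine Submodule.mul_induction_on hu ?_ ?_
    · intro a ha b hb
      obtain ⟨h2, h3⟩ := ih a ha
      obtain ⟨h4, h5⟩ := key1 b hb
      rw [map_mul, map_mul]
      refine ⟨Ideal.mul_mem_mul ha hb, Ideal.mul_mem_mul h2 h4, ?_⟩
      rw [lead_mul ld (by rwa [ht]) (by rwa [h1]), lead_mul ld (by rwa [ht]) (by rwa [h1]), h3, h5]
    · rintro a b ⟨ha, h2, h3⟩ ⟨hb, h4, h5⟩
      rw [map_add, map_add]
      refine ⟨Ideal.add_mem _ ha hb, Ideal.add_mem _ h2 h4, ?_⟩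
      rw [ld.add (by rwa [ht1]) (by rwa [ht1]), ld.add (by rwa [ht1]) (by rwa [ht1]), h3, h5]

include co hy in
theorem rho_lead {t : ℤ} {u : KK p} (hu : u ∈ Ip p t) : RN p n (rho hf u) ∈ Ip p t ∧
    ld.L t (RN p n (rho hf u)) = ld.L t u := by
  rcases lt_or_ge t 0 with ht | ht
  · exact ⟨Ip_of_nonpos p ht.le _, by rw [ld.neg _ ht, ld.neg _ ht]⟩
  · obtain ⟨t, rfl⟩ := Int.eq_ofNat_of_zero_le ht
    have h1 : Ip p (t : ℤ) = II p ^ t := by rw [Ip, Int.toNat_natCast]
    rw [h1] at hu ⊢
    exact rho_lead_nat (ld := ld) co hy hf t u hu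

include co hy in
/-- multiplication by homogeneous elements -/
theorem cf_smul {k m k' : ℤ} (h : k + m = k') {u : KK p} (hu : HK p m u) {z : M} (hz : z ∈ Mg k) :
    u • z ∈ Mg k' ∧ cf hf k' (u • z) = rho hf u * cf hf k z := by
  have h1 : u • z = RN p n (rho hf u * cf hf k z) • y := by
    conv_lhs => rw [cf_spec hf hz, rho_smul co hy hf, smul_smul, ← map_mul]
  have h2 : HK p k' (RN p n (rho hf u * cf hf k z)) := by
    rw [map_mul]
    exact HK_cast (by omega) ((rho_HK hf hu).mul (cf_HK hf k z))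
  refine ⟨?_, cf_eq co hy hf h2 h1⟩
  rw [h1]
  exact mem_of_HK co hy h2

/-! ### coordinates -/

/-- the coordinates of `a` -/
noncomputable def vE (k : ℤ) (a : Y.A k) (E : ℕ →₀ ℕ) : MvPolynomial (Fin n) ℤ_[p] :=
  cf hf (k + dT p E) (co.c k a (monomial E 1))

theorem mem_c (k : ℤ) (a : Y.A k) (E : ℕ →₀ ℕ) : co.c k a (monomial E 1) ∈ Mg (k + dT p E) :=
  (co.range k _).1 ⟨a, rfl⟩ E

theorem vE_HK (k : ℤ) (a : Y.A k) (E : ℕ →₀ ℕ) : HK p (k + dT p E) (RN p n (vE co hf k a E)) :=
  cf_HK hf _ _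

theorem vE_spec (k : ℤ) (a : Y.A k) (E : ℕ →₀ ℕ) :
    co.c k a (monomial E 1) = RN p n (vE co hf k a E) • y := cf_spec hf (mem_c co k a E)

include hy in
theorem vE_add (k : ℤ) (a b : Y.A k) (E : ℕ →₀ ℕ) :
    vE co hf k (a + b) E = vE co hf k a E + vE co hf k b E := by
  rw [vE, map_add, LinearMap.add_apply, cf_add co hy hf (mem_c co k a E) (mem_c co k b E)]
  rfl

/-- the coordinates as a homomorphism -/
noncomputable def vEh (k : ℤ) (E : ℕ →₀ ℕ) : Y.A k →+ MvPolynomial (Fin n) ℤ_[p] :=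
  AddMonoidHom.mk' (fun a => vE co hf k a E) (fun a b => vE_add co hy hf k a b E)

include hy in
theorem vE_zero (k : ℤ) (E : ℕ →₀ ℕ) : vE co hf k 0 E = 0 := map_zero (vEh co hy hf k E)

include hy in
theorem vE_neg (k : ℤ) (a : Y.A k) (E : ℕ →₀ ℕ) : vE co hf k (-a) E = -vE co hf k a E :=
  map_neg (vEh co hy hf k E) a

include hy in
theorem vE_sub (k : ℤ) (a b : Y.A k) (E : ℕ →₀ ℕ) :
    vE co hf k (a - b) E = vE co hf k a E - vE co hf k b E := map_sub (vEh co hy hf k E) a b

include hy in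
theorem vE_nsmul (k : ℤ) (m : ℕ) (a : Y.A k) (E : ℕ →₀ ℕ) :
    vE co hf k (m • a) E = m • vE co hf k a E := map_nsmul (vEh co hy hf k E) m a

include hy in
theorem vE_sum (k : ℤ) {ι : Type*} (A : Finset ι) (a : ι → Y.A k) (E : ℕ →₀ ℕ) :
    vE co hf k (∑ i ∈ A, a i) E = ∑ i ∈ A, vE co hf k (a i) E := map_sum (vEh co hy hf k E) a A

theorem eq_of_c {k : ℤ} {a b : Y.A k}
    (h : ∀ E, co.c k a (monomial E 1) = co.c k b (monomial E 1)) : a = b := by
  apply co.inj k
  refine (basisMonomials ℕ (KK p)).ext fun E => ?_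
  rw [coe_basisMonomials]
  exact h E

theorem eq_of_vE {k : ℤ} {a b : Y.A k} (h : ∀ E, vE co hf k a E = vE co hf k b E) : a = b := by
  apply eq_of_c co
  intro E
  rw [vE_spec co hf, vE_spec co hf, h]

/-- elements with given values -/
theorem exists_of_c (k : ℤ) (z : (ℕ →₀ ℕ) → M) (hz : ∀ E, z E ∈ Mg (k + dT p E)) :
    ∃ a : Y.A k, ∀ E, co.c k a (monomial E 1) = z E := by
  have h1 : ∀ E, (basisMonomials ℕ (KK p)).constr ℕ z (monomial E 1) = z E := by
    intro E
    have h2 := (basisMonomials ℕ (KK p)).constr_basis ℕ z E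
    rwa [coe_basisMonomials] at h2
  obtain ⟨a, ha⟩ := (co.range k ((basisMonomials ℕ (KK p)).constr ℕ z)).2 (fun E => by
    rw [h1]
    exact hz E)
  exact ⟨a, fun E => by rw [ha, h1]⟩

include hy in
theorem exists_of_vE (k : ℤ) (f : (ℕ →₀ ℕ) → MvPolynomial (Fin n) ℤ_[p])
    (hk : ∀ E, HK p (k + dT p E) (RN p n (f E))) : ∃ a : Y.A k, ∀ E, vE co hf k a E = f E := by
  obtain ⟨a, ha⟩ := exists_of_c co k (fun E => RN p n (f E) • y)
    (fun E => mem_of_HK co hy (hk E))
  exact ⟨a, fun E => cf_eq co hy hf (hk E) (ha E)⟩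

include hy in
/-- the value on an element of `BP_* BP` -/
theorem pair {k m k' : ℤ} (h : k + m = k') (a : Y.A k) {G : GG p} {t s : ℤ}
    (hG : ∀ E', HK p (m - dT p E') (coeff E' G)) (ht : ∀ E', coeff E' G ∈ Ip p t)
    (ha : ∀ E', RN p n (vE co hf k a E') ∈ Ip p s) (W : Finset (ℕ →₀ ℕ)) (hW : G.support ⊆ W) :
    RN p n (cf hf k' (co.c k a G)) ∈ Ip p (t + s) ∧
      ld.L (t + s) (RN p n (cf hf k' (co.c k a G))) =
        ∑ E' ∈ W, ld.L t (coeff E' G) * ld.L s (RN p n (vE co hf k a E')) := by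
  have h1 : G = ∑ E' ∈ W, coeff E' G • monomial E' 1 := by
    conv_lhs => rw [G.as_sum]
    rw [Finset.sum_subset hW (fun E' _ hE' => by
      rw [mem_support_iff, not_not] at hE'
      rw [hE', map_zero])]
    refine Finset.sum_congr rfl fun E' _ => ?_
    rw [smul_monomial, smul_eq_mul, _root_.mul_one]
  have h2 : co.c k a G = ∑ E' ∈ W, coeff E' G • co.c k a (monomial E' 1) := by
    conv_lhs => rw [h1]
    rw [map_sum]
    exact Finset.sum_congr rfl fun E' _ => map_smul _ _ _
  have h3 := fun E' => cf_smul co hy hf (show k + dT p E' + (m - dT p E') = k' by omega)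
    (hG E') (mem_c co k a E')
  have h4 : cf hf k' (co.c k a G) = ∑ E' ∈ W, rho hf (coeff E' G) * vE co hf k a E' := by
    rw [h2, cf_sum co hy hf W _ fun E' _ => (h3 E').1]
    exact Finset.sum_congr rfl fun E' _ => (h3 E').2
  have h5 := fun E' => rho_lead (ld := ld) co hy hf (ht E')
  rw [h4, map_sum]
  refine ⟨Ideal.sum_mem _ fun E' _ => ?_, ?_⟩
  · rw [map_mul]
    exact Ip_mul p (h5 E').1 (ha E')
  · rw [lead_sum ld W _ fun E' _ => by
      rw [map_mul]
      exact Ip_mul p (h5 E').1 (ha E')]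
    refine Finset.sum_congr rfl fun E' _ => ?_
    rw [map_mul, lead_mul ld (h5 E').1 (ha E'), (h5 E').2]

end

/-! ### the right unit -/

section eta

variable {ld : Lead p n} {S : Src p n} (O : OpAlg ld S)

/-- the exponent of `t_{n+1+l-a} ^ (p ^ a)` -/
noncomputable def muE (n l a : ℕ) : ℕ →₀ ℕ :=
  if a ≤ n + l then Finsupp.single (n + l - a) (p ^ a) else 0

theorem tG_pow (n l a : ℕ) (ha : a < n + 2 + l) :
    tG p (n + 1 + l - a) ^ p ^ a = monomial (muE (p := p) n l a) 1 := by
  unfold muE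
  split_ifs with h
  · have h1 : n + 1 + l - a = (n + l - a) + 1 := by omega
    rw [h1, tG, X_pow_eq_monomial]
  · have h1 : n + 1 + l - a = 0 := by omega
    rw [h1, tG, one_pow]
    rfl

theorem Ip_one : Ip p 1 = II p := by rw [Ip, Int.toNat_one, pow_one]

theorem Ip_two : Ip p 2 = II p ^ 2 := rfl

/-- the coefficients of `η_R(x_l) t^E` -/
theorem coeff_eta (l : ℕ) (E E' : ℕ →₀ ℕ) : ∃ r ∈ Ip p 2,
    coeff E' (O.η l * monomial E 1) =
      (∑ a ∈ Finset.range (n + 2 + l), if muE (p := p) n l a + E = E' then vK p a else 0) + r := by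
  classical
  set R : GG p := O.η l - ∑ a ∈ Finset.range (n + 2 + l),
    C (vK p a) * tG p (n + 1 + l - a) ^ p ^ a with hR
  have h1 : O.η l = ∑ a ∈ Finset.range (n + 2 + l),
      C (vK p a) * tG p (n + 1 + l - a) ^ p ^ a + R := by
    rw [hR]
    ring
  refine ⟨coeff E' (R * monomial E 1), ?_, ?_⟩
  · rw [coeff_mul_monomial', Ip_two]
    split_ifs with h
    · rw [_root_.mul_one]
      exact O.η_mem l (E' - E)
    · exact Ideal.zero_mem _
  · conv_lhs => rw [h1]
    rw [add_mul, coeff_add, Finset.sum_mul, coeff_sum]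
    congr 1
    refine Finset.sum_congr rfl fun a ha => ?_
    rw [tG_pow n l a (Finset.mem_range.1 ha), mul_assoc, monomial_mul, _root_.one_mul, coeff_C_mul,
      coeff_monomial]
    split_ifs
    · rw [_root_.mul_one]
    · rw [mul_zero]

theorem eta_mem (l : ℕ) (E E' : ℕ →₀ ℕ) : coeff E' (O.η l * monomial E 1) ∈ Ip p 1 := by
  obtain ⟨r, hr, h⟩ := coeff_eta O l E E'
  rw [h]
  refine Ideal.add_mem _ (Ideal.sum_mem _ fun a _ => ?_) (Ip_mono p (by norm_num) hr)
  split_ifs
  · exact vK_mem a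
  · exact Ideal.zero_mem _

/-- **the leading terms of `η_R(x_l) t^E`** -/
theorem eta_lead (l : ℕ) (E E' : ℕ →₀ ℕ) : ld.L 1 (coeff E' (O.η l * monomial E 1)) =
    ∑ a : Fin (n + 1), if E + Finsupp.single (n + l - a) (p ^ (a : ℕ)) = E' then X a else 0 := by
  classical
  obtain ⟨r, hr, h⟩ := coeff_eta O l E E'
  have h1 : ∀ a ∈ Finset.range (n + 2 + l),
      (if muE (p := p) n l a + E = E' then vK p a else 0 : KK p) ∈ Ip p 1 := by
    intro a _
    split_ifs
    · exact vK_mem a
    · exact Ideal.zero_mem _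
  rw [h, lead_add_of_mem ld (Ideal.sum_mem _ h1) hr, lead_sum ld _ _ h1]
  have h2 : ∀ a, ld.L 1 (if muE (p := p) n l a + E = E' then vK p a else 0 : KK p) =
      if muE (p := p) n l a + E = E' then ld.L 1 (vK p a) else 0 := by
    intro a
    split_ifs
    · rfl
    · exact lead_map_zero ld 1
  rw [Finset.sum_congr rfl fun a _ => h2 a]
  have h3 : Finset.range (n + 1) ⊆ Finset.range (n + 2 + l) := by
    intro a ha
    rw [Finset.mem_range] at ha ⊢
    omega
  rw [← Finset.sum_subset h3 fun a _ ha => by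
    rw [Finset.mem_range] at ha
    rw [lead_vK_ge ld (by omega), ite_self], Finset.sum_range]
  refine Finset.sum_congr rfl fun a _ => ?_
  have h4 : muE (p := p) n l a = Finsupp.single (n + l - a) (p ^ (a : ℕ)) := by
    unfold muE
    rw [if_pos (by have := a.2; omega)]
  rw [h4, lead_vK_lt ld a, add_comm]

end eta

section fs

variable {ld : Lead p n} {S : Src p n} {O : OpAlg ld S} {Y : Sys S} {M : Type}
  [AddCommGroup M] [Module (KK p) M] {Mg : ℤ → AddSubgroup M} (co : Coor O Y M Mg) {y : M}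
  (hy : y ∈ Mg 0)
  (hf : ∀ k, ∀ z ∈ Mg k, ∃! f : MvPolynomial (Fin n) ℤ_[p],
      HK p k (RN p n f) ∧ z = RN p n f • y)

include hy in
/-- the coordinates of `a ∘ x_l` -/
theorem vE_x (l : ℕ) {s k k' : ℤ} (h : k + dd p n l = k') (a : Y.A k)
    (ha : ∀ E', RN p n (vE co hf k a E') ∈ Ip p s) (E : ℕ →₀ ℕ) :
    RN p n (vE co hf k' (Y.act h a (S.x l)) E) ∈ Ip p (s + 1) ∧
      ld.L (s + 1) (RN p n (vE co hf k' (Y.act h a (S.x l)) E)) =
        ∑ b : Fin (n + 1), X b * ld.L s (RN p n (vE co hf k a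
          (E + Finsupp.single (n + l - b) (p ^ (b : ℕ))))) := by
  classical
  have h1 : co.c k' (Y.act h a (S.x l)) (monomial E 1) = co.c k a (O.η l * monomial E 1) := by
    rw [co.act, LinearMap.comp_apply, O.T_x]
  have hG : ∀ E', HK p (dd p n l + dT p E - dT p E') (coeff E' (O.η l * monomial E 1)) := by
    intro E'
    have h2 := O.homog (dd p n l) (S.x l) E E'
    rwa [O.T_x] at h2
  set W : Finset (ℕ →₀ ℕ) := (O.η l * monomial E 1).support ∪
    Finset.univ.image fun b : Fin (n + 1) => E + Finsupp.single (n + l - b) (p ^ (b : ℕ)) with hW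
  obtain ⟨h3, h4⟩ := pair co hy hf (k' := k' + dT p E) (by omega) a hG (eta_mem O l E) ha W
    Finset.subset_union_left
  rw [vE, h1, add_comm s 1]
  refine ⟨h3, ?_⟩
  rw [h4]
  simp only [eta_lead]
  simp only [Finset.sum_mul]
  rw [Finset.sum_comm]
  refine Finset.sum_congr rfl fun b _ => ?_
  rw [Finset.sum_eq_single (E + Finsupp.single (n + l - (b : ℕ)) (p ^ (b : ℕ)))]
  · rw [if_pos rfl]
  · intro E' _ hE'
    rw [if_neg (fun h => hE' h.symm), zero_mul]
  · intro h
    exact absurd (Finset.mem_union_right _ (Finset.mem_image_of_mem _ (Finset.mem_univ b))) h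

include hy in
/-- the coordinates of `a ∘ γ` for `a` with leading term concentrated in `0` -/
theorem vE_act {s k t m k' : ℤ} (h : k + m = k') (a : Y.A k) (γ : S.E m) {g : RR p n}
    (ha : ∀ E', RN p n (vE co hf k a E') ∈ Ip p s)
    (hθ : (fun E' => ld.L s (RN p n (vE co hf k a E'))) = del g) (hγ : γ ∈ S.F t m)
    (E : ℕ →₀ ℕ) :
    RN p n (vE co hf k' (Y.act h a γ) E) ∈ Ip p (s + t) ∧
      ld.L (s + t) (RN p n (vE co hf k' (Y.act h a γ) E)) = S.θ t m γ E * g := by
  classical
  have h1 : co.c k' (Y.act h a γ) (monomial E 1) = co.c k a (O.T m γ (monomial E 1)) := by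
    rw [co.act, LinearMap.comp_apply]
  set W : Finset (ℕ →₀ ℕ) := insert 0 (O.T m γ (monomial E 1)).support with hW
  obtain ⟨h3, h4⟩ := pair co hy hf (k' := k' + dT p E) (by omega) a (O.homog m γ E)
    (O.T_mem t m γ hγ E) ha W (Finset.subset_insert _ _)
  rw [vE, h1, add_comm s t]
  refine ⟨h3, ?_⟩
  rw [h4, Finset.sum_eq_single 0]
  · have h5 := congrFun hθ 0
    rw [h5, del, Pi.single_eq_same, O.θ_eq t m γ E hγ]
  · intro E' _ hE'
    have h5 := congrFun hθ E'
    rw [h5, del, Pi.single_eq_of_ne hE', mul_zero]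
  · intro h
    exact absurd (Finset.mem_insert_self _ _) h

/-- **the filtered system of the standard form** -/
noncomputable def fsB (d : ℤ) : FS Y (grR p n) d where
  F s k :=
    { carrier := {a | ∀ E, RN p n (vE co hf k a E) ∈ Ip p s}
      add_mem' := fun {a b} ha hb E => by
        rw [vE_add co hy hf, map_add]
        exact Ideal.add_mem _ (ha E) (hb E)
      zero_mem' := fun E => by
        rw [vE_zero co hy hf, map_zero]
        exact Ideal.zero_mem _
      neg_mem' := fun {a} ha E => by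
        rw [vE_neg co hy hf, map_neg]
        exact Ideal.neg_mem_iff _ |>.2 (ha E) }
  mono h a ha E := Ip_mono p h (ha E)
  exh {k} _ := by
    refine ⟨0, ?_⟩
    rw [eq_top_iff]
    intro a _ E
    exact Ip_of_nonpos p le_rfl _
  sep {k} _ a ha := by
    apply eq_of_vE co hf
    intro E
    rw [vE_zero co hy hf]
    apply RN_injective p
    rw [map_zero]
    exact eq_zero_of_Ip p fun t => ha t E
  cpl {k} _ s a ha := by
    have h1 : ∀ E, ∃ g : MvPolynomial (Fin n) ℤ_[p], HK p (k + dT p E) (RN p n g) ∧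
        ∀ m : ℕ, RN p n g - ∑ i ∈ Finset.range m, RN p n (vE co hf k (a i) E) ∈ Ip p (s + m) :=
      fun E => exists_RN_sum p (k + dT p E) s (fun i => vE co hf k (a i) E)
        (fun i => vE_HK co hf k (a i) E) (fun i => ha i E)
    choose g hg hg' using h1
    obtain ⟨b, hb⟩ := exists_of_vE co hy hf k g hg
    refine ⟨b, fun m E => ?_⟩
    rw [vE_sub co hy hf, vE_sum co hy hf, hb, map_sub, map_sum]
    exact hg' E m
  p_mem {s k a} ha E := by
    rw [vE_nsmul co hy hf, map_nsmul, nsmul_eq_mul]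
    have h1 : ((p : ℕ) : KK p) ∈ Ip p 1 := by
      rw [Ip_one]
      exact p_mem_II p
    have h2 := Ip_mul p h1 (ha E)
    rwa [add_comm] at h2
  θ s k a E := ld.L s (RN p n (vE co hf k a E))
  θ_add {s k a b} _ ha hb := by
    funext E
    rw [vE_add co hy hf, map_add, ld.add (ha E) (hb E)]
    rfl
  θ_mem {s k a} _ ha E := lead_homog ld (ha E) (vE_HK co hf k a E)
  θ_surj {s k ζ} _ hζ := by
    choose f hf1 hf2 hf3 using fun E => lead_surj ld (hζ E)
    obtain ⟨a, ha⟩ := exists_of_vE co hy hf k f hf2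
    refine ⟨a, fun E => ?_, ?_⟩
    · rw [ha]
      exact hf1 E
    · funext E
      rw [ha, hf3]
  θ_ker {s k a} _ ha := by
    constructor
    · intro h E
      exact lead_inj ld (ha E) (congrFun h E)
    · intro h
      funext E
      exact lead_zero ld (h E)
  x_mem l {s k k'} h {a} _ ha E := (vE_x co hy hf l h a ha E).1
  θ_x l {s k k'} h {a} _ ha := by
    funext E
    rw [(vE_x co hy hf l h a ha E).2]
    rfl
  act_mem {s k t m k'} h {a γ g} _ _ ha hθ hγ E := (vE_act co hy hf h a γ ha hθ hγ E).1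
  θ_act {s k t m k'} h {a γ g} _ _ ha hθ hγ := by
    funext E
    exact (vE_act co hy hf h a γ ha hθ hγ E).2
  ev_surj {k} _ x := by
    classical
    have hx : co.e k x ∈ Mg k := (co.e_range k _).1 ⟨x, rfl⟩
    obtain ⟨a, ha⟩ := exists_of_c co k (fun E => if E = 0 then co.e k x else 0) (fun E => by
      split_ifs with h
      · rw [h, dT_zero, add_zero]
        exact hx
      · exact AddSubgroup.zero_mem _)
    refine ⟨a, co.e_inj k ?_⟩
    have h1 := ha 0
    rw [if_pos rfl] at h1
    rw [co.ev, ← h1]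
    rfl
  ev_lift {s k a} _ ha h0 := by
    classical
    obtain ⟨b, hb⟩ := exists_of_vE co hy hf k (fun E => if E = 0 then vE co hf k a 0 else 0)
      (fun E => by
        split_ifs with h
        · rw [h]
          exact vE_HK co hf k a 0
        · rw [map_zero]
          exact HK_zero _)
    refine ⟨b, fun E => ?_, co.e_inj k ?_⟩
    · rw [hb]
      split_ifs with h
      · exact lead_inj ld (ha 0) h0
      · rw [map_zero]
        exact Ideal.zero_mem _
    · rw [co.ev, co.ev]
      have h1 : (1 : GG p) = monomial 0 1 := rfl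
      rw [h1, vE_spec co hf, vE_spec co hf, hb, if_pos rfl]
  ev_zero {s k a} _ ha h0 := by
    have h1 : co.c k a (monomial 0 1) = 0 := by
      have h2 := co.ev k a
      rw [h0, map_zero] at h2
      exact h2.symm
    have h2 : vE co hf k a 0 = 0 := by
      rw [vE, h1, cf_zero co hy hf]
    change ld.L s (RN p n (vE co hf k a 0)) = 0
    rw [h2, map_zero, lead_map_zero]
  ev_sep {k} _ x hx := by
    apply co.e_inj k
    rw [map_zero]
    have hx0 : co.e k x ∈ Mg k := (co.e_range k _).1 ⟨x, rfl⟩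
    have h1 : RN p n (cf hf k (co.e k x)) = 0 := by
      apply eq_zero_of_Ip p
      intro t
      obtain ⟨a, ha, hax⟩ := hx t
      have h2 : vE co hf k a 0 = cf hf k (co.e k x) := by
        have h3 : co.c k a (monomial 0 1) = co.e k x := by
          rw [← hax, co.ev]
          rfl
        apply cf_eq co hy hf
        · have h4 := cf_HK hf k (co.e k x)
          exact HK_cast (by rw [dT_zero, add_zero]) h4
        · rw [h3]
          exact cf_spec hf hx0
      rw [← h2]
      exact ha 0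
    rw [cf_spec hf hx0, h1, zero_smul]

end fs

/-- **(T-SB)** the standard form -/
theorem specSB (p n : ℕ) [Fact p.Prime] : SpecSB p n := by
  classical
  intro ld S O Y M _ _ Mg co y hy hf g hg
  have hf' : ∀ k, ∀ z ∈ Mg k, ∃! f : MvPolynomial (Fin n) ℤ_[p],
      HK p k (RN p n f) ∧ z = RN p n f • y := hf
  -- the coordinates of `g`
  have hgE : ∀ E, vE co hf' 0 g E = if E = 0 then 1 else 0 := by
    intro E
    apply cf_eq co hy hf'
    · split_ifs with h
      · rw [map_one, h, dT_zero, add_zero]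
        exact isWeightedHomogeneous_one _ _
      · rw [map_zero]
        exact HK_zero _
    · rw [hg]
      split_ifs with h
      · rw [map_one, one_smul]
      · rw [map_zero, zero_smul]
  refine ⟨fun d => fsB co hy hf' d, fun d E => Ip_of_nonpos p le_rfl _, fun d => ?_,
    fun d d' => ⟨rfl, rfl⟩, fun d k s a N ha => ?_⟩
  · funext E
    change ld.L 0 (RN p n (vE co hf' 0 g E)) = _
    rw [hgE]
    split_ifs with h
    · rw [map_one, lead_one, h, del, Pi.single_eq_same]
    · rw [map_zero, lead_map_zero, del, Pi.single_eq_of_ne h]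
  · replace ha : ∀ E, RN p n (vE co hf' k a E) ∈ Ip p s := ha
    obtain ⟨γ, hγ, hγc⟩ := O.appr k s N (fun E => vE co hf' k a E) (fun E => vE_HK co hf' k a E) ha
    choose u hu using hγc
    have hu' : ∀ E, coeff 0 (O.T k γ (monomial E 1)) =
        RN p n (vE co hf' k a E) + (p : KK p) ^ N * u E := hu
    -- homogeneity of `u E`
    have hHK : ∀ E, HK p (k + dT p E) (u E) := by
      intro E
      have h1 := O.homog k γ E 0
      rw [dT_zero, sub_zero, hu'] at h1
      have h2 : HK p (k + dT p E) ((p : KK p) ^ N * u E) := by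
        have h3 := (weightedHomogeneousSubmodule ℤ_[p] (fun i : ℕ => sV p (i + 1))
          (k + dT p E)).sub_mem h1 (vE_HK co hf' k a E)
        rw [add_sub_cancel_left] at h3
        exact h3
      intro E' hE'
      refine h2 ?_
      have h4 : (p : KK p) ^ N = C ((p : ℤ_[p]) ^ N) := by
        rw [map_pow, map_natCast]
      rw [h4, coeff_C_mul]
      exact mul_ne_zero (pow_ne_zero _ (by
        exact_mod_cast (Fact.out : p.Prime).ne_zero)) hE'
    -- the value of `g ∘ γ`
    have hval : ∀ E, co.c k (Y.act (zero_add k) g γ) (monomial E 1) =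
        co.c k a (monomial E 1) + (p : KK p) ^ N • (u E • y) := by
      intro E
      rw [co.act, LinearMap.comp_apply]
      set G := O.T k γ (monomial E 1) with hG
      have h1 : co.c 0 g G = coeff 0 G • y := by
        conv_lhs => rw [G.as_sum]
        rw [map_sum]
        have h2 : ∀ E' ∈ G.support, co.c 0 g (monomial E' (coeff E' G)) =
            if E' = 0 then coeff 0 G • y else 0 := by
          intro E' _
          have h3 : (monomial E' (coeff E' G) : GG p) = coeff E' G • monomial E' 1 := by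
            rw [smul_monomial, smul_eq_mul, _root_.mul_one]
          rw [h3, map_smul, hg]
          split_ifs with h
          · rw [h]
          · rw [smul_zero]
        rw [Finset.sum_congr rfl h2, Finset.sum_ite_eq']
        split_ifs with h
        · rfl
        · rw [mem_support_iff, not_not] at h
          rw [h, zero_smul]
      rw [h1, hu', add_smul, mul_smul, ← vE_spec co hf']
    obtain ⟨b, hb⟩ := exists_of_c co k (fun E => -(u E • y)) (fun E =>
      AddSubgroup.neg_mem _ (mem_of_HK co hy (hHK E)))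
    refine ⟨γ, hγ, b, eq_of_c co fun E => ?_⟩
    rw [map_add, map_nsmul, LinearMap.add_apply, LinearMap.smul_apply, hval, hb, smul_neg,
      ← Nat.cast_smul_eq_nsmul (KK p), Nat.cast_pow, add_neg_cancel_right]

end Vale.Agent.P221.T.H746
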