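import Vale.Agent.P221.T.Coor
import Mathlib.Data.Finsupp.Interval
import Mathlib.Algebra.MvPolynomial.CommRing

/-!
# P221, part T (helper746): powers of the ideal `(p, v_1, v_2, …)` and leading terms

* `mem_Ip_iff` : `f ∈ Ip p t ↔ ∀ E, p ^ (t.toNat - |E|) ∣ coeff E f`;
* `mem_Ip_rename_iff` : the same for polynomials in `v_1, …, v_n`;
* `Lead.mul'`, `Lead.zero'`, `Lead.homog'`, `Lead.surj'`, `Lead.inj'` : the axioms of `Lead` for all
  integers `t`.
-/

open MvPolynomial

set_option linter.unusedSectionVars false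

namespace Vale.Agent.P221.T.H746

variable (p : ℕ) [hp : Fact p.Prime]

/-! ### the ideals -/

/-- the ideal of the polynomials with `p ^ (t - |E|) ∣ coeff E f` -/
noncomputable def JJ (t : ℕ) : Ideal (KK p) where
  carrier := {f | ∀ E : ℕ →₀ ℕ, (p : ℤ_[p]) ^ (t - E.degree) ∣ coeff E f}
  add_mem' := fun {f g} hf hg E => by
    rw [coeff_add]
    exact dvd_add (hf E) (hg E)
  zero_mem' := fun E => by
    rw [coeff_zero]
    exact dvd_zero _
  smul_mem' := fun c f hf E => by
    classical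
    rw [smul_eq_mul, coeff_mul]
    refine Finset.dvd_sum fun x hx => Dvd.dvd.mul_left ?_ _
    refine (pow_dvd_pow _ ?_).trans (hf x.2)
    have h1 : x.1 + x.2 = E := Finset.mem_antidiagonal.1 hx
    have h2 : x.1.degree + x.2.degree = E.degree := by rw [← h1, map_add]
    omega

theorem mem_JJ {t : ℕ} {f : KK p} :
    f ∈ JJ p t ↔ ∀ E : ℕ →₀ ℕ, (p : ℤ_[p]) ^ (t - E.degree) ∣ coeff E f := Iff.rfl

theorem JJ_mul (s t : ℕ) : JJ p s * JJ p t ≤ JJ p (s + t) := by
  classical
  rw [Ideal.mul_le]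
  intro f hf g hg E
  rw [coeff_mul]
  refine Finset.dvd_sum fun x hx => ?_
  refine (pow_dvd_pow _ ?_).trans (pow_add (p : ℤ_[p]) (s - x.1.degree) (t - x.2.degree) ▸
    mul_dvd_mul (hf x.1) (hg x.2))
  have h1 : x.1 + x.2 = E := Finset.mem_antidiagonal.1 hx
  have h2 : x.1.degree + x.2.degree = E.degree := by rw [← h1, map_add]
  omega

theorem II_le : II p ≤ JJ p 1 := by
  classical
  rw [II, Ideal.span_le]
  rintro f (rfl | ⟨i, rfl⟩) E
  · have h1 : ((p : ℕ) : KK p) = C (p : ℤ_[p]) := by rw [map_natCast]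
    rw [h1, coeff_C]
    split_ifs with h
    · rw [← h, map_zero, Nat.sub_zero, pow_one]
    · exact dvd_zero _
  · rw [coeff_X]
    split_ifs with h
    · rw [← h, Finsupp.degree_single, Nat.sub_self, pow_zero]
    · exact dvd_zero _

theorem II_pow_le (t : ℕ) : II p ^ t ≤ JJ p t := by
  induction t with
  | zero =>
    intro f _ E
    rw [Nat.zero_sub, pow_zero]
    exact one_dvd _
  | succ t ih =>
    rw [pow_succ]
    exact (Ideal.mul_mono ih (II_le p)).trans (JJ_mul p t 1)

theorem p_mem_II : ((p : ℕ) : KK p) ∈ II p := Ideal.subset_span (Set.mem_insert _ _)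

theorem X_mem_II (i : ℕ) : (X i : KK p) ∈ II p :=
  Ideal.subset_span (Set.mem_insert_of_mem _ ⟨i, rfl⟩)

theorem prod_mem_II (E : ℕ →₀ ℕ) : (monomial E 1 : KK p) ∈ II p ^ E.degree := by
  classical
  induction E using Finsupp.induction_linear with
  | zero =>
    rw [map_zero, pow_zero, Ideal.one_eq_top]
    exact Submodule.mem_top
  | add E E' h h' =>
    have h1 : (monomial (E + E') 1 : KK p) = monomial E 1 * monomial E' 1 := by
      rw [monomial_mul, one_mul]
    rw [h1, map_add, pow_add]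
    exact Ideal.mul_mem_mul h h'
  | single i m =>
    have h1 : (monomial (Finsupp.single i m) 1 : KK p) = X i ^ m := by
      rw [X_pow_eq_monomial]
    rw [h1, Finsupp.degree_single]
    exact Ideal.pow_mem_pow (X_mem_II p i) m

theorem JJ_le (t : ℕ) : JJ p t ≤ II p ^ t := by
  intro f hf
  rw [f.as_sum]
  refine Ideal.sum_mem _ fun E _ => ?_
  obtain ⟨c, hc⟩ := hf E
  have h1 : monomial E (coeff E f) =
      C c * (((p : ℕ) : KK p) ^ (t - E.degree) * monomial E 1) := by
    rw [hc, ← map_natCast (C (σ := ℕ) (R := ℤ_[p])), ← map_pow, C_mul_monomial, C_mul_monomial]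
    congr 1
    ring
  rw [h1]
  refine Ideal.mul_mem_left _ _ ?_
  have h2 := Ideal.mul_mem_mul (Ideal.pow_mem_pow (p_mem_II p) (t - E.degree)) (prod_mem_II p E)
  rw [← pow_add] at h2
  exact Ideal.pow_le_pow_right (by omega) h2

/-- **the powers of `(p, v_1, v_2, …)`** -/
theorem mem_II_pow_iff {t : ℕ} {f : KK p} :
    f ∈ II p ^ t ↔ ∀ E : ℕ →₀ ℕ, (p : ℤ_[p]) ^ (t - E.degree) ∣ coeff E f :=
  ⟨fun h => II_pow_le p t h, fun h => JJ_le p t h⟩

theorem mem_Ip_iff {t : ℤ} {f : KK p} :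
    f ∈ Ip p t ↔ ∀ E : ℕ →₀ ℕ, (p : ℤ_[p]) ^ (t.toNat - E.degree) ∣ coeff E f :=
  mem_II_pow_iff p

theorem Ip_mono {s t : ℤ} (h : s ≤ t) : Ip p t ≤ Ip p s := Ideal.pow_le_pow_right (by omega)

theorem Ip_of_nonpos {t : ℤ} (h : t ≤ 0) (f : KK p) : f ∈ Ip p t := by
  rw [Ip, Int.toNat_of_nonpos h, pow_zero, Ideal.one_eq_top]
  exact Submodule.mem_top

theorem Ip_mul {s t : ℤ} {f g : KK p} (hf : f ∈ Ip p s) (hg : g ∈ Ip p t) :
    f * g ∈ Ip p (s + t) := by
  have h1 := Ideal.mul_mem_mul hf hg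
  rw [Ip, Ip, ← pow_add] at h1
  exact Ideal.pow_le_pow_right (by omega) h1

/-- separation -/
theorem eq_zero_of_Ip {f : KK p} (h : ∀ t, f ∈ Ip p t) : f = 0 := by
  ext E
  rw [coeff_zero]
  by_contra hne
  have h1 : ∀ N : ℕ, (p : ℤ_[p]) ^ N ∣ coeff E f := by
    intro N
    have h2 := (mem_Ip_iff p).1 (h ((N + E.degree : ℕ) : ℤ)) E
    rwa [Int.toNat_natCast, Nat.add_sub_cancel] at h2
  have h2 : ¬ IsUnit (p : ℤ_[p]) := PadicInt.p_nonunit
  obtain ⟨N, hN⟩ := FiniteMultiplicity.of_not_isUnit h2 hne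
  exact hN (h1 _)

theorem two_le : 2 ≤ p := hp.out.two_le

theorem sV_lt {i j : ℕ} (h : i < j) : sV p i < sV p j := by
  unfold sV
  have h1 : p ^ i < p ^ j := Nat.pow_lt_pow_right hp.out.one_lt h
  have h2 : ((p : ℤ) ^ i) < (p : ℤ) ^ j := by exact_mod_cast h1
  omega

theorem sV_nonneg (i : ℕ) : 0 ≤ sV p i := by
  unfold sV
  have h1 : 0 < p ^ i := pow_pos hp.out.pos _
  have h2 : (1 : ℤ) ≤ (p : ℤ) ^ i := by exact_mod_cast h1
  omega

theorem sV_pos (i : ℕ) : 0 < sV p (i + 1) := by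
  have h1 := sV_lt p (show 0 < i + 1 by omega)
  have h2 : sV p 0 = 0 := by simp [sV]
  omega

/-! ### polynomials in `v_1, …, v_n` -/

variable {n : ℕ}

/-- the inclusion of `ℤ_p[v_1, …, v_n]` -/
noncomputable abbrev RN (n : ℕ) : MvPolynomial (Fin n) ℤ_[p] →ₐ[ℤ_[p]] KK p :=
  rename (fun i : Fin n => (i : ℕ))

theorem degree_mapDomain (E : Fin n →₀ ℕ) :
    (Finsupp.mapDomain (fun i : Fin n => (i : ℕ)) E).degree = E.degree := by
  induction E using Finsupp.induction_linear with
  | zero => rw [Finsupp.mapDomain_zero, map_zero, map_zero]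
  | add E E' h h' => rw [Finsupp.mapDomain_add, map_add, map_add, h, h']
  | single i m => rw [Finsupp.mapDomain_single, Finsupp.degree_single, Finsupp.degree_single]

theorem weight_mapDomain (w : ℕ → ℤ) (E : Fin n →₀ ℕ) :
    Finsupp.weight w (Finsupp.mapDomain (fun i : Fin n => (i : ℕ)) E) =
      Finsupp.weight (fun i : Fin n => w i) E := by
  induction E using Finsupp.induction_linear with
  | zero => rw [Finsupp.mapDomain_zero, map_zero, map_zero]
  | add E E' h h' => rw [Finsupp.mapDomain_add, map_add, map_add, h, h']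
  | single i m =>
    rw [Finsupp.mapDomain_single, Finsupp.weight_single, Finsupp.weight_single]

theorem mem_Ip_RN_iff {t : ℤ} {f : MvPolynomial (Fin n) ℤ_[p]} :
    RN p n f ∈ Ip p t ↔ ∀ E : Fin n →₀ ℕ, (p : ℤ_[p]) ^ (t.toNat - E.degree) ∣ coeff E f := by
  rw [mem_Ip_iff]
  constructor
  · intro h E
    have h1 := h (Finsupp.mapDomain (fun i : Fin n => (i : ℕ)) E)
    rwa [coeff_rename_mapDomain _ Fin.val_injective, degree_mapDomain] at h1
  · intro h E
    by_cases hE : ∃ u, Finsupp.mapDomain (fun i : Fin n => (i : ℕ)) u = E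
    · obtain ⟨u, rfl⟩ := hE
      rw [coeff_rename_mapDomain _ Fin.val_injective, degree_mapDomain]
      exact h u
    · rw [coeff_rename_eq_zero _ _ _ fun u hu => absurd ⟨u, hu⟩ hE]
      exact dvd_zero _

theorem HK_RN_iff {k : ℤ} {f : MvPolynomial (Fin n) ℤ_[p]} :
    HK p k (RN p n f) ↔ IsWeightedHomogeneous (fun i : Fin n => sV p (i + 1)) f k := by
  constructor
  · intro h E hE
    have h1 := @h (Finsupp.mapDomain (fun i : Fin n => (i : ℕ)) E) (by
      rwa [coeff_rename_mapDomain _ Fin.val_injective])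
    rwa [weight_mapDomain] at h1
  · intro h E hE
    by_cases hE' : ∃ u, Finsupp.mapDomain (fun i : Fin n => (i : ℕ)) u = E
    · obtain ⟨u, rfl⟩ := hE'
      rw [coeff_rename_mapDomain _ Fin.val_injective] at hE
      rw [weight_mapDomain]
      exact h hE
    · exact absurd (coeff_rename_eq_zero _ _ _ fun u hu => absurd ⟨u, hu⟩ hE') hE

theorem RN_injective : Function.Injective (RN p n) := rename_injective _ Fin.val_injective

/-- monomials of a given degree in `v_1, …, v_n` have bounded exponents -/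
theorem le_of_weight {k : ℤ} {E : Fin n →₀ ℕ}
    (h : Finsupp.weight (fun i : Fin n => sV p (i + 1)) E = k) (i : Fin n) : (E i : ℤ) ≤ k := by
  classical
  have h1 : E = (E - Finsupp.single i (E i)) + Finsupp.single i (E i) := by
    rw [tsub_add_cancel_of_le]
    rw [Finsupp.single_le_iff]
  have h2 : 0 ≤ Finsupp.weight (fun i : Fin n => sV p (i + 1)) (E - Finsupp.single i (E i)) := by
    rw [Finsupp.weight_apply]
    exact Finsupp.sum_nonneg fun j _ => smul_nonneg (Nat.zero_le _) (sV_nonneg p _)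
  rw [h1, map_add, Finsupp.weight_single] at h
  have h3 : (E i : ℤ) ≤ E i • sV p (i + 1) := by
    rw [nsmul_eq_mul]
    exact le_mul_of_one_le_right (Int.natCast_nonneg _) (by have := sV_pos p i; omega)
  have h4 : ((E i • sV p ((i : ℕ) + 1) : ℤ)) ≤ k := by
    rw [← h]
    exact le_add_of_nonneg_left h2
  exact h3.trans h4

/-- finitely many monomials in each degree -/
theorem finite_weight (k : ℤ) :
    {E : Fin n →₀ ℕ | Finsupp.weight (fun i : Fin n => sV p (i + 1)) E = k}.Finite := by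
  refine (Set.finite_Icc (0 : Fin n →₀ ℕ)
    (Finsupp.equivFunOnFinite.symm fun _ : Fin n => k.toNat)).subset ?_
  intro E hE
  refine ⟨fun i => Nat.zero_le _, fun i => ?_⟩
  have h1 := le_of_weight p hE i
  change E i ≤ k.toNat
  omega

/-- a monomial in `v_1, …, v_n` of the degree of `v_{i+1}`, `n ≤ i`, has at least two factors -/
theorem two_le_degree {i : ℕ} (hi : n ≤ i) {E : Fin n →₀ ℕ}
    (h : Finsupp.weight (fun i : Fin n => sV p (i + 1)) E = sV p (i + 1)) : 2 ≤ E.degree := by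
  classical
  by_contra hlt
  rcases Nat.lt_or_ge 0 E.degree with h1 | h1
  · have h2 : E.degree = 1 := by omega
    obtain ⟨j, hj⟩ : ∃ j, E j ≠ 0 := by
      by_contra hall
      push Not at hall
      have h3 : E = 0 := Finsupp.ext hall
      rw [h3, map_zero] at h1
      exact lt_irrefl _ h1
    have h3 : E = (E - Finsupp.single j 1) + Finsupp.single j 1 := by
      rw [tsub_add_cancel_of_le]
      rw [Finsupp.single_le_iff]
      omega
    rw [h3, map_add, Finsupp.degree_single] at h2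
    have h4 : E - Finsupp.single j 1 = 0 := (Finsupp.degree_eq_zero_iff _).1 (by omega)
    rw [h4, zero_add] at h3
    rw [h3, Finsupp.weight_single, one_smul] at h
    have h5 := sV_lt p (show (j : ℕ) + 1 < i + 1 by omega)
    omega
  · have h2 : E = 0 := (Finsupp.degree_eq_zero_iff _).1 (by omega)
    rw [h2, map_zero] at h
    have := sV_pos p i
    omega

/-! ### completeness -/

/-- convergence of series in `ℤ_p` with a bound for the remainders -/
theorem exists_padic_sum (c : ℕ → ℤ_[p]) (e : ℕ → ℕ) (hmono : Monotone e)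
    (hinf : ∀ N, ∃ i, N ≤ e i) (hc : ∀ i, (p : ℤ_[p]) ^ e i ∣ c i) :
    ∃ L, ∀ m, (p : ℤ_[p]) ^ e m ∣ L - ∑ i ∈ Finset.range m, c i := by
  classical
  -- differences of partial sums
  have key : ∀ (N a b : ℕ), N ≤ e a → a ≤ b →
      (p : ℤ_[p]) ^ N ∣ ∑ i ∈ Finset.range b, c i - ∑ i ∈ Finset.range a, c i := by
    intro N a b ha hab
    rw [← Finset.sum_Ico_eq_sub _ hab]
    refine Finset.dvd_sum fun i hi => ?_
    refine (pow_dvd_pow _ ?_).trans (hc i)
    exact ha.trans (hmono (Finset.mem_Ico.1 hi).1)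
  choose ι hι using hinf
  have hspan : ∀ (N : ℕ) (x : ℤ_[p]),
      x ∈ (IsLocalRing.maximalIdeal ℤ_[p] ^ N • ⊤ : Ideal ℤ_[p]) ↔ (p : ℤ_[p]) ^ N ∣ x := by
    intro N x
    rw [smul_eq_mul, Ideal.mul_top, PadicInt.maximalIdeal_eq_span_p, Ideal.span_singleton_pow,
      Ideal.mem_span_singleton]
  -- comparison of two indices
  have key2 : ∀ (N a b : ℕ), N ≤ e a → N ≤ e b →
      (p : ℤ_[p]) ^ N ∣ ∑ i ∈ Finset.range b, c i - ∑ i ∈ Finset.range a, c i := by
    intro N a b ha hb
    rcases le_total a b with h | h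
    · exact key N a b ha h
    · have h1 := key N b a hb h
      rw [← dvd_neg, neg_sub] at h1
      exact h1
  obtain ⟨L, hL⟩ := IsPrecomplete.prec (I := IsLocalRing.maximalIdeal ℤ_[p]) (M := ℤ_[p])
    inferInstance (f := fun N => ∑ i ∈ Finset.range (ι N), c i) (by
      intro m k hmk
      rw [SModEq.sub_mem, hspan]
      exact key2 m (ι k) (ι m) (hmk.trans (hι k)) (hι m))
  refine ⟨L, fun m => ?_⟩
  have h1 := (hL (e m)).symm
  rw [SModEq.sub_mem, hspan] at h1
  have h2 := key2 (e m) m (ι (e m)) le_rfl (hι (e m))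
  have h3 : L - ∑ i ∈ Finset.range m, c i = (L - ∑ i ∈ Finset.range (ι (e m)), c i) +
      (∑ i ∈ Finset.range (ι (e m)), c i - ∑ i ∈ Finset.range m, c i) := by ring
  rw [h3]
  exact dvd_add h1 h2

/-- **completeness** of the homogeneous polynomials in `v_1, …, v_n` of degree `k` -/
theorem exists_RN_sum (k s : ℤ) (f : ℕ → MvPolynomial (Fin n) ℤ_[p])
    (hk : ∀ i, HK p k (RN p n (f i))) (hf : ∀ i : ℕ, RN p n (f i) ∈ Ip p (s + i)) :
    ∃ g : MvPolynomial (Fin n) ℤ_[p], HK p k (RN p n g) ∧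
      ∀ m : ℕ, RN p n g - ∑ i ∈ Finset.range m, RN p n (f i) ∈ Ip p (s + m) := by
  classical
  have h1 : ∀ E : Fin n →₀ ℕ, ∃ L : ℤ_[p], ∀ m : ℕ,
      (p : ℤ_[p]) ^ ((s + m).toNat - E.degree) ∣ L - ∑ i ∈ Finset.range m, coeff E (f i) := by
    intro E
    refine exists_padic_sum p (fun i => coeff E (f i)) (fun m => (s + m).toNat - E.degree) ?_ ?_ ?_
    · intro a b hab
      dsimp only
      omega
    · intro N
      refine ⟨(N + E.degree + s.natAbs), ?_⟩
      omega
    · intro i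
      exact (mem_Ip_RN_iff p).1 (hf i) E
  choose L hL using h1
  let A : Finset (Fin n →₀ ℕ) := (finite_weight p (n := n) k).toFinset
  have hA : ∀ E, E ∈ A ↔ Finsupp.weight (fun i : Fin n => sV p (i + 1)) E = k := fun E =>
    Set.Finite.mem_toFinset _
  have hcoeff : ∀ E, coeff E (∑ E' ∈ A, monomial E' (L E')) = if E ∈ A then L E else 0 := by
    intro E
    rw [coeff_sum]
    simp only [coeff_monomial]
    rw [Finset.sum_ite_eq']
  refine ⟨∑ E ∈ A, monomial E (L E), ?_, fun m => ?_⟩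
  · rw [HK_RN_iff]
    intro E hE
    rw [hcoeff] at hE
    by_cases h : E ∈ A
    · exact (hA E).1 h
    · rw [if_neg h] at hE
      exact absurd rfl hE
  · have h2 : RN p n (∑ E ∈ A, monomial E (L E)) - ∑ i ∈ Finset.range m, RN p n (f i) =
        RN p n (∑ E ∈ A, monomial E (L E) - ∑ i ∈ Finset.range m, f i) := by
      rw [map_sub, map_sum _ f]
    rw [h2, mem_Ip_RN_iff]
    intro E
    rw [coeff_sub, hcoeff, coeff_sum]
    split_ifs with h
    · exact hL E m
    · have h3 : ∀ i, coeff E (f i) = 0 := by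
        intro i
        by_contra hne
        exact h ((hA E).2 ((HK_RN_iff p).1 (hk i) hne))
      rw [Finset.sum_eq_zero fun i _ => h3 i, sub_self]
      exact dvd_zero _

/-! ### leading terms -/

section lead

variable {p} (ld : Lead p n)

include ld in
theorem lead_zero {t : ℤ} {f : KK p} (hf : f ∈ Ip p (t + 1)) : ld.L t f = 0 := by
  rcases lt_or_ge t 0 with h | h
  · exact ld.neg f h
  · exact ld.zero h hf

theorem lead_mul {t s : ℤ} {f g : KK p} (hf : f ∈ Ip p t) (hg : g ∈ Ip p s) :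
    ld.L (t + s) (f * g) = ld.L t f * ld.L s g := by
  rcases lt_or_ge t 0 with ht | ht
  · rw [ld.neg f ht, zero_mul]
    have h1 := Ip_mul p (Ip_of_nonpos p (le_refl 0) f) hg
    exact lead_zero ld (Ip_mono p (by omega) h1)
  · rcases lt_or_ge s 0 with hs | hs
    · rw [ld.neg g hs, mul_zero]
      have h1 := Ip_mul p hf (Ip_of_nonpos p (le_refl 0) g)
      exact lead_zero ld (Ip_mono p (by omega) h1)
    · exact ld.mul ht hs hf hg

theorem grR_neg {k t : ℤ} (ht : t < 0) {g : RR p n} (hg : g ∈ grR p n k t) : g = 0 := by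
  by_contra hne
  obtain ⟨E, hE⟩ := ne_zero_iff.1 hne
  have h1 := @hg.2 E hE
  have h2 : 0 ≤ Finsupp.weight (fun _ : Fin (n + 1) => (1 : ℤ)) E := by
    rw [Finsupp.weight_apply]
    exact Finsupp.sum_nonneg fun j _ => smul_nonneg (Nat.zero_le _) zero_le_one
  rw [h1] at h2
  omega

theorem lead_homog {t k : ℤ} {f : KK p} (hf : f ∈ Ip p t) (hk : HK p k f) :
    ld.L t f ∈ grR p n k t := by
  rcases lt_or_ge t 0 with h | h
  · rw [ld.neg f h]
    exact AddSubgroup.zero_mem _
  · exact ld.homog h hf hk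

theorem HK_zero (k : ℤ) : HK p k (0 : KK p) := isWeightedHomogeneous_zero _ _ _

theorem lead_surj {t k : ℤ} {g : RR p n} (hg : g ∈ grR p n k t) :
    ∃ f : MvPolynomial (Fin n) ℤ_[p],
      RN p n f ∈ Ip p t ∧ HK p k (RN p n f) ∧ ld.L t (RN p n f) = g := by
  rcases lt_or_ge t 0 with h | h
  · refine ⟨0, ?_, ?_, ?_⟩
    · rw [map_zero]
      exact Ideal.zero_mem _
    · rw [map_zero]
      exact HK_zero k
    · rw [ld.neg _ h, grR_neg h hg]
  · exact ld.surj h hg

theorem lead_inj {t : ℤ} {f : MvPolynomial (Fin n) ℤ_[p]} (hf : RN p n f ∈ Ip p t)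
    (h0 : ld.L t (RN p n f) = 0) : RN p n f ∈ Ip p (t + 1) := by
  rcases lt_or_ge t 0 with h | h
  · exact Ip_of_nonpos p (by omega) _
  · exact ld.inj h hf h0

theorem lead_one : ld.L 0 1 = 1 := by
  have h := ld.const 1
  rwa [map_one, map_one, map_one] at h

theorem lead_map_zero (t : ℤ) : ld.L t 0 = 0 := by
  have h := ld.add (t := t) (Ideal.zero_mem _) (Ideal.zero_mem _)
  rw [add_zero] at h
  exact left_eq_add.1 h

theorem lead_sum {t : ℤ} {ι : Type*} (A : Finset ι) (f : ι → KK p) (hf : ∀ i ∈ A, f i ∈ Ip p t) :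
    ld.L t (∑ i ∈ A, f i) = ∑ i ∈ A, ld.L t (f i) := by
  classical
  induction A using Finset.induction_on with
  | empty => rw [Finset.sum_empty, Finset.sum_empty, lead_map_zero]
  | insert i A hi ih =>
    rw [Finset.sum_insert hi, Finset.sum_insert hi, ld.add (hf i (Finset.mem_insert_self i A))
      (Ideal.sum_mem _ fun j hj => hf j (Finset.mem_insert_of_mem hj)),
      ih fun j hj => hf j (Finset.mem_insert_of_mem hj)]

theorem lead_add_of_mem {t : ℤ} {f g : KK p} (hf : f ∈ Ip p t) (hg : g ∈ Ip p (t + 1)) :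
    ld.L t (f + g) = ld.L t f := by
  rw [ld.add hf (Ip_mono p (by omega) hg), lead_zero ld hg, add_zero]

omit ld in
theorem vK_mem (a : ℕ) : vK p a ∈ Ip p 1 := by
  have h1 : Ip p 1 = II p := by rw [Ip, Int.toNat_one, pow_one]
  rw [h1]
  rcases a with _ | a
  · exact p_mem_II p
  · exact X_mem_II p a

theorem lead_vK_lt (a : Fin (n + 1)) : ld.L 1 (vK p a) = X a := by
  obtain ⟨a, ha⟩ := a
  rcases a with _ | a
  · exact ld.p_eq
  · exact ld.v_lt a (by omega)

theorem lead_vK_ge {a : ℕ} (ha : n < a) : ld.L 1 (vK p a) = 0 := by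
  rcases a with _ | a
  · omega
  · exact ld.v_ge a (by omega)

end lead

end Vale.Agent.P221.T.H746
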