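import Vale.Agent.P221.T.Filt

/-!
# P221, part T (helper746): `SpecF4`, maps out of sums of suspensions of `B`
-/

open MvPolynomial

namespace Vale.Agent.P221.T.H746

variable {p n : ℕ} {S : Src p n}

theorem exists_lb {r : ℕ} (t : Fin r → ℤ) : ∃ m, ∀ i, m ≤ t i := by
  obtain ⟨m, hm⟩ := (Set.finite_range t).bddBelow
  exact ⟨m, fun i => hm ⟨i, rfl⟩⟩

section fs

variable {Y : Sys S} {N : Type} [AddCommGroup N] [Module (RR p n) N]
  {gr : ℤ → ℤ → AddSubgroup N} {d : ℤ} (T : FS Y gr d)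

theorem mem_cast {s s' k : ℤ} (h : s = s') {a : Y.A k} (ha : a ∈ T.F s k) : a ∈ T.F s' k := by
  subst h
  exact ha

theorem θ_cast {s s' k : ℤ} (h : s = s') (a : Y.A k) : T.θ s k a = T.θ s' k a := by
  subst h
  rfl

theorem pow_mem {s k : ℤ} {a : Y.A k} (ha : a ∈ T.F s k) (M : ℕ) : p ^ M • a ∈ T.F (s + M) k := by
  induction M with
  | zero =>
    have h1 : p ^ 0 • a ∈ T.F s k := by
      rw [pow_zero, one_smul]
      exact ha
    exact mem_cast T (by simp) h1
  | succ M ih =>
    have h := T.p_mem ih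
    rw [smul_smul, ← pow_succ'] at h
    exact mem_cast T (by push_cast; ring) h

/-- `p ^ M` maps everything into `F s k` for large `M` -/
theorem exists_pow (s k : ℤ) (hk : d ≤ k) : ∃ M₀ : ℕ, ∀ M, M₀ ≤ M → ∀ a : Y.A k,
    p ^ M • a ∈ T.F s k := by
  obtain ⟨s', hs'⟩ := T.exh hk
  refine ⟨(s - s').toNat, fun M hM a => ?_⟩
  have h1 : a ∈ T.F s' k := by
    rw [hs']
    exact AddSubgroup.mem_top _
  refine T.mono ?_ (pow_mem T h1 M)
  omega

theorem θ_zero_of_mem {s k : ℤ} (hk : d ≤ k) {a : Y.A k} (ha : a ∈ T.F (s + 1) k) :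
    T.θ s k a = 0 := (T.θ_ker hk (T.mono (by omega) ha)).2 ha

/-- leading terms modulo `F (s + 1)` -/
theorem θ_add_of_mem {s k : ℤ} (hk : d ≤ k) {a b : Y.A k} (ha : a ∈ T.F s k)
    (hb : b ∈ T.F (s + 1) k) : T.θ s k (a + b) = T.θ s k a := by
  rw [T.θ_add hk ha (T.mono (by omega) hb), θ_zero_of_mem T hk hb, add_zero]

theorem θ_zero {s k : ℤ} (hk : d ≤ k) : T.θ s k 0 = 0 :=
  θ_zero_of_mem T hk (AddSubgroup.zero_mem _)

theorem θ_sum {s k : ℤ} (hk : d ≤ k) {ι : Type} (t : Finset ι) (a : ι → Y.A k)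
    (ha : ∀ i ∈ t, a i ∈ T.F s k) : T.θ s k (∑ i ∈ t, a i) = ∑ i ∈ t, T.θ s k (a i) := by
  classical
  induction t using Finset.induction_on with
  | empty => rw [Finset.sum_empty, Finset.sum_empty, θ_zero T hk]
  | insert i t hi ih =>
    rw [Finset.sum_insert hi, Finset.sum_insert hi,
      T.θ_add hk (ha i (Finset.mem_insert_self i t))
        (AddSubgroup.sum_mem _ fun l hl => ha l (Finset.mem_insert_of_mem hl)),
      ih fun l hl => ha l (Finset.mem_insert_of_mem hl)]

end fs

section sum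

variable {Z B : Sys S} {r : ℕ} {e : Fin r → ℤ} (j : ∀ i, SysMap B Z (e i))

/-- the sum of the `j i` -/
noncomputable def sumA (k : ℤ) : (∀ i, B.A (k - e i)) →+ Z.A k :=
  AddMonoidHom.mk' (fun w => ∑ i, (j i).f (sub_add_cancel k (e i)) (w i)) (by
    intro w w'
    rw [← Finset.sum_add_distrib]
    exact Finset.sum_congr rfl fun i _ => map_add _ _ _)

/-- the sum of the `j i` -/
noncomputable def sumP (k : ℤ) : (∀ i, B.Pi (k - e i)) →+ Z.Pi k :=
  AddMonoidHom.mk' (fun w => ∑ i, (j i).g (sub_add_cancel k (e i)) (w i)) (by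
    intro w w'
    rw [← Finset.sum_add_distrib]
    exact Finset.sum_congr rfl fun i _ => map_add _ _ _)

theorem sumA_apply (k : ℤ) (w : ∀ i, B.A (k - e i)) :
    sumA j k w = ∑ i, (j i).f (sub_add_cancel k (e i)) (w i) := rfl

theorem sumP_apply (k : ℤ) (w : ∀ i, B.Pi (k - e i)) :
    sumP j k w = ∑ i, (j i).g (sub_add_cancel k (e i)) (w i) := rfl

theorem ev_sumA (k : ℤ) (w : ∀ i, B.A (k - e i)) :
    Z.ev k (sumA j k w) = sumP j k fun i => B.ev _ (w i) := by
  rw [sumA_apply, sumP_apply, map_sum]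
  exact Finset.sum_congr rfl fun i _ => (j i).ev _ _

theorem act_sumA {k m k' : ℤ} (h : k + m = k') (w : ∀ i, B.A (k - e i)) (γ : S.E m) :
    Z.act h (sumA j k w) γ =
      sumA j k' fun i => B.act (show k - e i + m = k' - e i by omega) (w i) γ := by
  rw [sumA_apply, sumA_apply, map_sum, AddMonoidHom.finsetSum_apply]
  refine Finset.sum_congr rfl fun i _ => ?_
  rw [(j i).act _ (sub_add_cancel k (e i)) h]

variable (hA : ∀ k, Function.Bijective (sumA j k)) (hP : ∀ k, Function.Bijective (sumP j k))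

/-- the components -/
noncomputable def cmp (k : ℤ) : Z.A k →+ ∀ i, B.A (k - e i) :=
  (AddEquiv.ofBijective (sumA j k) (hA k)).symm.toAddMonoidHom

theorem sumA_cmp (k : ℤ) (z : Z.A k) : sumA j k (cmp j hA k z) = z :=
  (AddEquiv.ofBijective (sumA j k) (hA k)).apply_symm_apply z

theorem cmp_sumA (k : ℤ) (w : ∀ i, B.A (k - e i)) : cmp j hA k (sumA j k w) = w :=
  (AddEquiv.ofBijective (sumA j k) (hA k)).symm_apply_apply w

theorem cmp_act {k m k' : ℤ} (h : k + m = k') (z : Z.A k) (γ : S.E m) (i : Fin r) :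
    cmp j hA k' (Z.act h z γ) i =
      B.act (show k - e i + m = k' - e i by omega) (cmp j hA k z i) γ := by
  conv_lhs => rw [← sumA_cmp j hA k z, act_sumA, cmp_sumA]

theorem cmp_injective {k : ℤ} {z z' : Z.A k} (h : ∀ i, cmp j hA k z i = cmp j hA k z' i) :
    z = z' := by
  rw [← sumA_cmp j hA k z, ← sumA_cmp j hA k z', funext h]

theorem cmp_sum {k : ℤ} {ι : Type} (t : Finset ι) (z : ι → Z.A k) (i : Fin r) :
    cmp j hA k (∑ l ∈ t, z l) i = ∑ l ∈ t, cmp j hA k (z l) i := by
  rw [map_sum, Finset.sum_apply]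

theorem cmp_sub {k : ℤ} (z z' : Z.A k) (i : Fin r) :
    cmp j hA k (z - z') i = cmp j hA k z i - cmp j hA k z' i := by
  rw [map_sub]
  rfl

theorem cmp_add {k : ℤ} (z z' : Z.A k) (i : Fin r) :
    cmp j hA k (z + z') i = cmp j hA k z i + cmp j hA k z' i := by
  rw [map_add]
  rfl

theorem cmp_nsmul {k : ℤ} (m : ℕ) (z : Z.A k) (i : Fin r) :
    cmp j hA k (m • z) i = m • cmp j hA k z i := by
  rw [map_nsmul]
  rfl

theorem grR_cast {k k' s s' : ℤ} (h : k = k') (h' : s = s') {x : RR p n} (hx : x ∈ grR p n k s) :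
    x ∈ grR p n k' s' := by
  subst h h'
  exact hx

variable {d d' : ℤ} (T0 : FS B (grR p n) d') (hd : ∀ i (k : ℤ), d ≤ k → d' ≤ k - e i)
  (a : Fin r → ℤ)

/-- **the filtration of the sum** -/
noncomputable def fsSum : FS Z (grFree p n e a) d where
  F s k :=
    { carrier := {z | ∀ i, cmp j hA k z i ∈ T0.F (s - a i) (k - e i)}
      add_mem' := fun {x y} hx hy i => by
        rw [cmp_add]
        exact AddSubgroup.add_mem _ (hx i) (hy i)
      zero_mem' := fun i => by
        rw [map_zero]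
        exact AddSubgroup.zero_mem _
      neg_mem' := fun {x} hx i => by
        rw [map_neg]
        exact AddSubgroup.neg_mem _ (hx i) }
  mono h z hz i := T0.mono (by omega) (hz i)
  exh {k} hk := by
    choose t ht using fun i => T0.exh (hd i k hk)
    obtain ⟨m, hm⟩ := exists_lb fun i => t i + a i
    refine ⟨m, ?_⟩
    rw [eq_top_iff]
    intro z _ i
    have h1 : cmp j hA k z i ∈ T0.F (t i) (k - e i) := by
      rw [ht]
      exact AddSubgroup.mem_top _
    exact T0.mono (by have := hm i; omega) h1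
  sep {k} hk z hz := by
    apply cmp_injective j hA
    intro i
    rw [map_zero]
    refine T0.sep (hd i k hk) _ fun s => ?_
    exact mem_cast T0 (by ring) (hz (s + a i) i)
  cpl {k} hk s z hz := by
    have h1 : ∀ i, ∃ b : B.A (k - e i), ∀ m : ℕ,
        b - ∑ l ∈ Finset.range m, cmp j hA k (z l) i ∈ T0.F (s - a i + m) (k - e i) := fun i =>
      T0.cpl (hd i k hk) (s - a i) (fun l => cmp j hA k (z l) i)
        (fun l => mem_cast T0 (by ring) (hz l i))
    choose b hb using h1
    refine ⟨sumA j k b, fun m i => ?_⟩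
    rw [cmp_sub, cmp_sumA, cmp_sum]
    exact mem_cast T0 (by ring) (hb i m)
  p_mem {s k z} hz i := by
    rw [cmp_nsmul]
    exact mem_cast T0 (by ring) (T0.p_mem (hz i))
  θ s k z E i := T0.θ (s - a i) (k - e i) (cmp j hA k z i) E
  θ_add {s k x y} hk hx hy := by
    funext E i
    rw [cmp_add, T0.θ_add (hd i k hk) (hx i) (hy i)]
    rfl
  θ_mem {s k z} hk hz E i := grR_cast (by ring) rfl (T0.θ_mem (hd i k hk) (hz i) E)
  θ_surj {s k ζ} hk hζ := by
    have h1 : ∀ i, ∃ w ∈ T0.F (s - a i) (k - e i), T0.θ (s - a i) (k - e i) w =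
        fun E => ζ E i := fun i => T0.θ_surj (hd i k hk) fun E => grR_cast (by ring) rfl (hζ E i)
    choose w hw hwθ using h1
    refine ⟨sumA j k w, fun i => ?_, ?_⟩
    · rw [cmp_sumA]
      exact hw i
    · funext E i
      rw [cmp_sumA, hwθ]
  θ_ker {s k z} hk hz := by
    have h1 : ∀ i, (T0.θ (s - a i) (k - e i) (cmp j hA k z i) = 0 ↔
        cmp j hA k z i ∈ T0.F (s + 1 - a i) (k - e i)) := fun i => by
      rw [T0.θ_ker (hd i k hk) (hz i)]
      exact ⟨mem_cast T0 (by ring), mem_cast T0 (by ring)⟩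
    constructor
    · intro h i
      rw [← h1 i]
      funext E
      exact congrFun (congrFun h E) i
    · intro h
      funext E i
      exact congrFun ((h1 i).2 (h i)) E
  x_mem l {s k k'} h {z} hk hz i := by
    rw [cmp_act]
    exact mem_cast T0 (by ring) (T0.x_mem l _ (hd i k hk) (hz i))
  θ_x l {s k k'} h {z} hk hz := by
    funext E i
    rw [cmp_act, θ_cast T0 (show s + 1 - a i = s - a i + 1 by ring),
      T0.θ_x l _ (hd i k hk) (hz i)]
    simp only [DD, Finset.sum_apply, Pi.smul_apply]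
  act_mem {s k t m k'} h {z γ y} hk hk' hz hy hγ i := by
    rw [cmp_act]
    refine mem_cast T0 (by ring) (T0.act_mem (s := s - a i) (y := y i) _ (hd i k hk)
      (hd i k' hk') (hz i) ?_ hγ)
    funext E
    have h1 := congrFun (congrFun hy E) i
    refine h1.trans ?_
    by_cases hE : E = 0
    · subst hE
      simp
    · simp [hE]
  θ_act {s k t m k'} h {z γ y} hk hk' hz hy hγ := by
    funext E i
    rw [cmp_act, θ_cast T0 (show s + t - a i = s - a i + t by ring),
      T0.θ_act (s := s - a i) (y := y i) _ (hd i k hk) (hd i k' hk') (hz i) ?_ hγ]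
    · rfl
    · funext E
      have h1 := congrFun (congrFun hy E) i
      refine h1.trans ?_
      by_cases hE : E = 0
      · subst hE
        simp
      · simp [hE]
  ev_surj {k} hk y := by
    obtain ⟨w, rfl⟩ := (hP k).2 y
    choose u hu using fun i => T0.ev_surj (hd i k hk) (w i)
    refine ⟨sumA j k u, ?_⟩
    rw [ev_sumA, funext hu]
  ev_lift {s k z} hk hz h0 := by
    have h1 : ∀ i, ∃ b ∈ T0.F (s - a i + 1) (k - e i), B.ev _ b = B.ev _ (cmp j hA k z i) :=
      fun i => T0.ev_lift (hd i k hk) (hz i) (congrFun h0 i)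
    choose b hb hbe using h1
    refine ⟨sumA j k b, fun i => ?_, ?_⟩
    · rw [cmp_sumA]
      exact mem_cast T0 (by ring) (hb i)
    · rw [ev_sumA, funext hbe, ← ev_sumA, sumA_cmp]
  ev_zero {s k z} hk hz h0 := by
    have h1 : (fun i => B.ev _ (cmp j hA k z i)) = 0 := by
      apply (hP k).1
      rw [← ev_sumA, sumA_cmp, h0, map_zero]
    funext i
    exact T0.ev_zero (hd i k hk) (hz i) (congrFun h1 i)
  ev_sep {k} hk x hx := by
    obtain ⟨w, rfl⟩ := (hP k).2 x
    have h1 : w = 0 := by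
      funext i
      refine T0.ev_sep (hd i k hk) _ fun s => ?_
      obtain ⟨z, hz, hzx⟩ := hx (s + a i)
      refine ⟨cmp j hA k z i, mem_cast T0 (by ring) (hz i), ?_⟩
      have h2 : (fun i => B.ev _ (cmp j hA k z i)) = w := by
        apply (hP k).1
        rw [← ev_sumA, sumA_cmp, hzx]
      exact congrFun h2 i
    rw [h1, map_zero]

end sum

/-- **(F4)** maps out of sums of suspensions of `B` -/
theorem specF4 (p n : ℕ) : SpecF4 p n := by
  intro S B TB g hB Z Y N _ _ gr d T r e a j b c f hZA hZP hde hf hbj hcF hcθ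
  -- the sum decomposition
  have hA : ∀ k, Function.Bijective (sumA j k) := by
    intro k
    rw [Function.bijective_iff_existsUnique]
    intro z
    obtain ⟨w, hw, hu⟩ := hZA k z
    exact ⟨w, hw.symm, fun w' hw' => hu w' hw'.symm⟩
  have hP : ∀ k, Function.Bijective (sumP j k) := by
    intro k
    rw [Function.bijective_iff_existsUnique]
    intro z
    obtain ⟨w, hw, hu⟩ := hZP k z
    exact ⟨w, hw.symm, fun w' hw' => hu w' hw'.symm⟩
  -- one filtration of `B`
  obtain ⟨m, hm⟩ := exists_lb fun i => d - e i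
  set d' : ℤ := min m 0 with hd'
  have hd'0 : d' ≤ 0 := min_le_right _ _
  have hd : ∀ i (k : ℤ), d ≤ k → d' ≤ k - e i := fun i k hk => by
    have h1 := hm i
    have h2 : d' ≤ m := min_le_left _ _
    omega
  refine ⟨fsSum j hA hP (TB d') hd a, fun k s z hk hz => ?_⟩
  replace hz : ∀ i, cmp j hA k z i ∈ (TB d').F (s - a i) (k - e i) := hz
  set w := cmp j hA k z with hw
  -- the image of `z`
  have hbz : b.f (add_zero k) z = ∑ i, (c i).f (sub_add_cancel k (e i)) (w i) := by
    conv_lhs => rw [← sumA_cmp j hA k z, sumA_apply, map_sum]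
    exact Finset.sum_congr rfl fun i _ => hbj i _ k _ _
  -- one summand
  have key : ∀ i, (c i).f (sub_add_cancel k (e i)) (w i) ∈ T.F s k ∧
      T.θ s k ((c i).f (sub_add_cancel k (e i)) (w i)) =
        fun E => (TB d').θ (s - a i) (k - e i) (w i) E • f (Pi.single i 1) := by
    intro i
    obtain ⟨M₁, hM₁⟩ := exists_pow T (s + 1) k hk
    obtain ⟨M₂, hM₂⟩ := exists_pow (TB d') (s - a i + 1) (k - e i) (hd i k hk)
    obtain ⟨γ, hγ, v, hv⟩ := hB.appr d' (k - e i) (s - a i) (w i) (max M₁ M₂) (hz i)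
    have h1 := hM₁ _ (le_max_left M₁ M₂) ((c i).f (sub_add_cancel k (e i)) v)
    have h2 := hM₂ _ (le_max_right M₁ M₂) v
    -- in `Y`
    have h3 : (c i).f (sub_add_cancel k (e i)) (w i) =
        Y.act (add_sub_cancel (e i) k) ((c i).f (zero_add (e i)) g) γ +
          p ^ max M₁ M₂ • (c i).f (sub_add_cancel k (e i)) v := by
      rw [hv, map_add, map_nsmul, (c i).act _ (zero_add (e i)) (add_sub_cancel (e i) k)]
    have h4 := T.act_mem (add_sub_cancel (e i) k) (hde i) hk (hcF i) (hcθ i) hγ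
    have h5 := T.θ_act (add_sub_cancel (e i) k) (hde i) hk (hcF i) (hcθ i) hγ
    have e1 : a i + (s - a i) = s := add_sub_cancel _ _
    replace h4 := mem_cast T e1 h4
    rw [θ_cast T e1] at h5
    -- in `B`
    have h6 := (TB d').θ_act (zero_add (k - e i)) hd'0 (hd i k hk) (hB.mem d') (hB.θg d') hγ
    have h7 := (TB d').act_mem (zero_add (k - e i)) hd'0 (hd i k hk) (hB.mem d') (hB.θg d') hγ
    have e2 : 0 + (s - a i) = s - a i := zero_add _
    replace h7 := mem_cast (TB d') e2 h7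
    rw [θ_cast (TB d') e2] at h6
    have h8 : (TB d').θ (s - a i) (k - e i) (w i) = fun E => S.θ (s - a i) _ γ E := by
      rw [hv, θ_add_of_mem (TB d') (hd i k hk) h7 h2, h6]
      funext E
      rw [smul_eq_mul, mul_one]
    refine ⟨?_, ?_⟩
    · rw [h3]
      exact AddSubgroup.add_mem _ h4 (T.mono (by omega) h1)
    · rw [h3, θ_add_of_mem T hk h4 h1, h5, h8]
  refine ⟨?_, ?_⟩
  · rw [hbz]
    exact AddSubgroup.sum_mem _ fun i _ => (key i).1
  · rw [hbz, θ_sum T hk _ _ fun i _ => (key i).1]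
    funext E
    change _ = f fun i => (TB d').θ (s - a i) (k - e i) (w i) E
    rw [Finset.sum_apply, LinearMap.pi_apply_eq_sum_univ f]
    refine Finset.sum_congr rfl fun i _ => ?_
    have h1 : (fun l => if i = l then 1 else 0 : Fin r → RR p n) = Pi.single i 1 := by
      funext l
      rw [Pi.single_apply]
      exact if_congr eq_comm rfl rfl
    rw [(key i).2, h1]

end Vale.Agent.P221.T.H746
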